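import Vale.Agent.P011.H897.Gen
import Vale.Agent.P011.H402.Main

/-!
All clauses for anisotropic forms with stable values.
-/

set_option linter.unusedSectionVars false

open Matrix Module
open scoped commutatorElement

namespace Vale.Agent.P011S

open Vale.Agent.P011.H402

variable {p : ℕ} {K D F : Type} [Field K] [NumberField K] [StarRing K]
  [DivisionRing D] [StarRing D] [CharZero D] [Algebra K D] [StarModule K D]
  [FiniteDimensional K D] [Field F] [Algebra K F]

/-- Part I for forms with stable values. -/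
theorem partOne_stable (hK : ∃ k : K, star k ≠ k) (hpos : IsFormallyPositive D)
    {m : ℕ} (H : Matrix (Fin m) (Fin m) D)
    (hH : IsAnisotropicForm H) (hm : 3 ≤ m) (hU : IsUniversal H 2) (hS : HasStableValues H) :
    PartOne H := by
  have : FiniteDimensional ℚ D := FiniteDimensional.trans ℚ K D
  have : FormPos D := hpos.formPos
  have hA : An H := hH.an
  have hR : Room H 2 := room_of_explicit hU
  obtain ⟨N0, ⟨ρ⟩⟩ := exists_iota (D := D)
  obtain ⟨θ, hθ0, hθ, hθs⟩ : ∃ θ : D, θ ≠ 0 ∧ (∀ x, x * θ = θ * x) ∧ star θ = -θ := by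
    obtain ⟨k, hk⟩ := hK
    refine ⟨algebraMap K D (k - star k), ?_, ?_, ?_⟩
    · rw [Ne, map_eq_zero]
      exact sub_ne_zero.mpr (Ne.symm hk)
    · intro x
      exact (Algebra.commutes _ x).symm
    · rw [← algebraMap_star_comm, star_sub, star_star, ← map_neg, neg_sub]
  obtain ⟨c, c', hc⟩ := exists_good (K := K) (D := D) hK
  obtain ⟨G⟩ := exists_globF ρ hA hR (by norm_num) hc hθ hθs hθ0
  have hgen : Subgroup.closure (qrPosSet H hA.herm) = ⊤ :=
    closure_qrPos hA hR le_rfl ρ hθs hθ0 hθ
  have hO := openV_of_stable H hA hm hS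
  rintro N' hN' σ hσ ⟨x, hx⟩
  exact partI_open hA hO ρ G hgen hθs hθ0 hθ hN' hσ hx

/-- All clauses under the three-way hypothesis. -/
theorem all_clauses [Algebra.IsCentral K D]
    (hK : ∃ k : K, star k ≠ k) (hpos : IsFormallyPositive D)
    (hdeg : finrank K D = p ^ 2)
    (f : D →ₐ[K] Matrix (Fin p) (Fin p) F) {m : ℕ} (H : Matrix (Fin m) (Fin m) D)
    (hH : IsAnisotropicForm H)
    (hM : HasOrthonormal H (12 * Module.finrank ℚ D) ∨ IsTwoUniversal H ∨
      (3 ≤ m ∧ IsUniversal H 2 ∧ HasStableValues H)) : AllClauses f H := by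
  have : FiniteDimensional ℚ D := FiniteDimensional.trans ℚ K D
  have : FormPos D := hpos.formPos
  have hold : HasOrthonormal H (12 * Module.finrank ℚ D) ∨ IsTwoUniversal H →
      AllClauses f H := fun h =>
    all_of_dich f H (dich_anis hK hpos H hH h)
      (fun N _ => normal_anis_sqfree hK hpos hdeg f H hH h N)
  rcases hM with h | h | ⟨hm, hU, hS⟩
  · exact hold (Or.inl h)
  · exact hold (Or.inr h)
  · exact all_of_part hK hpos hdeg f H hH (room_of_explicit hU) hm
      (partOne_stable hK hpos H hH hm hU hS)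

end Vale.Agent.P011S
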