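import Vale.Agent.P011S.Defs2

open Matrix
open scoped commutatorElement

namespace Vale.Agent.P011S

/-- The matrix `g` is a scalar matrix whose scalar lies in the centre of `D`. -/
def IsCentralScalar {D : Type} [DivisionRing D] {m : ℕ}
    (g : (Matrix (Fin m) (Fin m) D)ˣ) : Prop :=
  ∃ c : D, (∀ d : D, c * d = d * c) ∧ (g : Matrix (Fin m) (Fin m) D) = Matrix.diagonal fun _ => c

/-- The subgroup `S` of `G` is reached from `G` by a finite chain of subgroups
`G = Γ 0 ≥ Γ 1 ≥ ... ≥ Γ n = S` in which every term is normal in, or of finite index in, the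
preceding one. Examples: normal subgroups, subnormal subgroups, subgroups of finite index. -/
def IsReached {G : Type} [Group G] (S : Subgroup G) : Prop :=
  ∃ (n : ℕ) (Γ : ℕ → Subgroup G), Γ 0 = ⊤ ∧ Γ n = S ∧ ∀ i < n, Γ (i + 1) ≤ Γ i ∧
    (((Γ (i + 1)).subgroupOf (Γ i)).Normal ∨ (Γ (i + 1)).relIndex (Γ i) ≠ 0)

/-- The subgroup `S` of `SU f H` is normal, contains all commutators of elements of `UH H`, the
quotient is an image of the reduced unitary Whitehead group of `D`, and it is trivial if the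
degree `p` of `D` is square-free. -/
def IsLarge {K D F : Type} [Field K] [DivisionRing D] [StarRing D] [Algebra K D]
    [Field F] [Algebra K F] {p : ℕ} (f : D →ₐ[K] Matrix (Fin p) (Fin p) F) {m : ℕ}
    (H : Matrix (Fin m) (Fin m) D) (S : Subgroup (SU f H)) : Prop :=
  ∃ _ : S.Normal, ContainsCommutators f H S ∧ IsQuotientOfSUK f (SU f H ⧸ S) ∧
    (Squarefree p → S = ⊤)

/-- With `E = ⁅UH H, UH H⁆`: every subgroup of `UH H` normalized by `E`, and every subgroup
reached from some group between `E` and `UH H`, consists of central scalars or contains `E`. -/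
def HasDichotomy {D : Type} [DivisionRing D] [StarRing D] {m : ℕ}
    (H : Matrix (Fin m) (Fin m) D) : Prop :=
  (∀ S : Subgroup (Matrix (Fin m) (Fin m) D)ˣ, S ≤ UH H →
    (∀ e ∈ ⁅UH H, UH H⁆, ∀ g ∈ S, e * g * e⁻¹ ∈ S) →
    (∀ g ∈ S, IsCentralScalar g) ∨ ⁅UH H, UH H⁆ ≤ S) ∧
  (∀ G : Subgroup (Matrix (Fin m) (Fin m) D)ˣ, ⁅UH H, UH H⁆ ≤ G → G ≤ UH H →
    ∀ S : Subgroup G, IsReached S →
      (∀ g ∈ S, IsCentralScalar (g : (Matrix (Fin m) (Fin m) D)ˣ)) ∨
        ⁅UH H, UH H⁆ ≤ S.map G.subtype)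

/-- The subgroup `E` is perfect, and the quotient by its centre is simple and not abelian. -/
def IsQuasisimple {W : Type} [Group W] (E : Subgroup W) : Prop :=
  ⁅E, E⁆ = E ∧ IsSimpleGroup (E ⧸ Subgroup.center E) ∧
    ∃ a b : E ⧸ Subgroup.center E, a * b ≠ b * a

end Vale.Agent.P011S
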