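import Vale.Agent.P011.H897.Main

/-!
Final assembly: subgroups of the special unitary group normalized by a large subgroup.
-/

set_option linter.unusedSectionVars false

open Matrix Module
open scoped commutatorElement

namespace Vale.Agent.P011S

variable {p : ℕ} {K D F : Type} [Field K] [NumberField K] [StarRing K]
  [DivisionRing D] [StarRing D] [CharZero D] [Algebra K D] [StarModule K D]
  [FiniteDimensional K D] [Algebra.IsCentral K D] [Field F] [Algebra K F]

/-- A subgroup of the special unitary group containing the commutator subgroup of the unitary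
group is normal, and the quotient is as in the theorem on normal subgroups. -/
theorem of_comm_le (hK : ∃ k : K, star k ≠ k) (hpos : IsFormallyPositive D)
    (hdeg : finrank K D = p ^ 2)
    (f : D →ₐ[K] Matrix (Fin p) (Fin p) F) {m : ℕ} (H : Matrix (Fin m) (Fin m) D)
    (hH : IsAnisotropicForm H)
    (hM : HasOrthonormal H (12 * Module.finrank ℚ D) ∨ IsTwoUniversal H)
    (S : Subgroup (SU f H)) (hS : ⁅UH H, UH H⁆ ≤ S.map (SU f H).subtype) :
    ∃ _ : S.Normal, ContainsCommutators f H S ∧ IsQuotientOfSUK f (SU f H ⧸ S) ∧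
      (Squarefree p → S = ⊤) := by
  have hD := dich_anis hK hpos H hH hM
  have hN : S.Normal := by
    refine ⟨fun n hn g => ?_⟩
    have h1 : ⁅(g : (Matrix (Fin m) (Fin m) D)ˣ), (n : (Matrix (Fin m) (Fin m) D)ˣ)⁆ ∈
        ⁅UH H, UH H⁆ := Subgroup.commutator_mem_commutator g.2.1 n.2.1
    obtain ⟨k, hk, hk'⟩ := hS h1
    have h2 : g * n * g⁻¹ = k * n := by
      apply Subtype.ext
      have h3 : (k : (Matrix (Fin m) (Fin m) D)ˣ) = ⁅(g : (Matrix (Fin m) (Fin m) D)ˣ),
        (n : (Matrix (Fin m) (Fin m) D)ˣ)⁆ := hk'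
      rw [Subgroup.coe_mul, Subgroup.coe_mul, Subgroup.coe_mul, Subgroup.coe_inv, h3,
        commutatorElement_def]
      group
    rw [h2]
    exact mul_mem hk hn
  refine ⟨hN, ?_⟩
  rcases normal_anis_sqfree hK hpos hdeg f H hH hM S with h | h
  · exfalso
    obtain ⟨g, hg, hg'⟩ := hD.perf
    have h1 : ⁅(⁅UH H, UH H⁆ : Subgroup (Matrix (Fin m) (Fin m) D)ˣ), ⁅UH H, UH H⁆⁆ = ⊥ := by
      rw [Subgroup.commutator_eq_bot_iff_le_centralizer]
      intro a ha
      rw [Subgroup.mem_centralizer_iff]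
      intro b hb
      obtain ⟨a', ha', rfl⟩ := hS ha
      obtain ⟨b', -, rfl⟩ := hS hb
      exact congrArg (SU f H).subtype (Subgroup.mem_center_iff.mp (h ha') b')
    rw [h1, Subgroup.mem_bot] at hg
    exact hg' (hg ▸ hD.one)
  · exact h

theorem central_of_scalar (f : D →ₐ[K] Matrix (Fin p) (Fin p) F) {m : ℕ}
    (H : Matrix (Fin m) (Fin m) D) {S : Subgroup (SU f H)}
    (h : ∀ g ∈ S, IsCentralScalar (g : (Matrix (Fin m) (Fin m) D)ˣ)) :
    S ≤ Subgroup.center (SU f H) := by
  intro s hs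
  obtain ⟨c, hc, hg⟩ := h s hs
  rw [Subgroup.mem_center_iff]
  intro g
  apply Subtype.ext
  apply Units.ext
  rw [Subgroup.coe_mul, Subgroup.coe_mul, Units.val_mul, Units.val_mul, hg]
  ext i j
  rw [Matrix.mul_diagonal, Matrix.diagonal_mul, hc]

/-- A subgroup of the special unitary group normalized by a noncentral reached subgroup. -/
theorem of_reached (hK : ∃ k : K, star k ≠ k) (hpos : IsFormallyPositive D)
    (hdeg : finrank K D = p ^ 2)
    (f : D →ₐ[K] Matrix (Fin p) (Fin p) F) {m : ℕ} (H : Matrix (Fin m) (Fin m) D)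
    (hH : IsAnisotropicForm H)
    (hM : HasOrthonormal H (12 * Module.finrank ℚ D) ∨ IsTwoUniversal H)
    (S T : Subgroup (SU f H)) (hT : IsReached T) (hT' : ¬ T ≤ Subgroup.center (SU f H))
    (hST : ∀ t ∈ T, ∀ s ∈ S, t * s * t⁻¹ ∈ S) :
    S ≤ Subgroup.center (SU f H) ∨
    ∃ _ : S.Normal, ContainsCommutators f H S ∧ IsQuotientOfSUK f (SU f H ⧸ S) ∧
      (Squarefree p → S = ⊤) := by
  have : FiniteDimensional ℚ D := FiniteDimensional.trans ℚ K D
  have : FormPos D := hpos.formPos
  have hD := dich_anis hK hpos H hH hM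
  have hTE : ⁅UH H, UH H⁆ ≤ T.map (SU f H).subtype := by
    rcases hD.reached (comm_le_SU f H) inf_le_left hT with h | h
    · exact absurd (central_of_scalar f H h) hT'
    · exact h
  rcases hD.dich (S.map (SU f H).subtype)
    ((Subgroup.map_subtype_le _).trans inf_le_left) (by
      rintro e he _ ⟨s, hs, rfl⟩
      obtain ⟨t, ht, rfl⟩ := hTE he
      exact ⟨t * s * t⁻¹, hST t ht s hs, rfl⟩) with h | h
  · exact Or.inl (central_of_scalar f H fun g hg => h _ ⟨g, hg, rfl⟩)
  · exact Or.inr (of_comm_le hK hpos hdeg f H hH hM S h)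

end Vale.Agent.P011S
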