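import Vale.Agent.P011.Bdl.B2

/-!
Orthonormal triples, a nonscalar element of the second derived group, and an infinite family
of pairwise non-proportional elements of the commutator subgroup of the isometry group.
-/

set_option linter.unusedSectionVars false

namespace Vale.Agent.P011S

open Module
open scoped commutatorElement

variable {D V : Type*} [DivisionRing D] [StarRing D] [AddCommGroup V] [Module D V] [CharZero D]

namespace AForm

variable {H : AForm D V}

/-- Three orthonormal vectors. -/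
theorem Rich.triple (hR : H.Rich) : ∃ x y z : V, H.h x x = 1 ∧ H.h y y = 1 ∧ H.h z z = 1 ∧
    H.h x y = 0 ∧ H.h y x = 0 ∧ H.h x z = 0 ∧ H.h z x = 0 ∧ H.h y z = 0 ∧ H.h z y = 0 := by
  obtain ⟨x, -, -, hx⟩ := hR.univ 0 0 1 sos_one
  obtain ⟨y, hyx, -, hy⟩ := hR.univ x 0 1 sos_one
  obtain ⟨z, hzx, hzy, hz⟩ := hR.univ x y 1 sos_one
  exact ⟨x, y, z, hx, hy, hz, H.orth_symm hyx, hyx, H.orth_symm hzx, hzx, H.orth_symm hzy, hzy⟩

/-- In `E = ⁅isom, isom⁆` the derived group `⁅E, E⁆` contains a nonscalar element. -/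
theorem Rich.perfect_elt (hR : H.Rich) :
    ∃ g ∈ ⁅⁅H.isom, H.isom⁆, ⁅H.isom, H.isom⁆⁆, ∃ v : V, ∀ c : D, g v ≠ c • v := by
  obtain ⟨x, y, z, hx, hy, hz, hxy, hyx, hxz, hzx, hyz, hzy⟩ := hR.triple
  have e1 : H.h (x - y) (x - y) = 2 := by
    simp only [sub_left, sub_right, hx, hy, hxy, hyx]; norm_num
  have e2 : H.h (y - z) (y - z) = 2 := by
    simp only [sub_left, sub_right, hy, hz, hyz, hzy]; norm_num
  have m1 : H.refl x * H.refl z ∈ ⁅H.isom, H.isom⁆ :=
    H.evenGp_le_comm (H.mul_mem_evenGp (hx.trans hz.symm))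
  have m2 : H.refl (x - y) * H.refl (y - z) ∈ ⁅H.isom, H.isom⁆ :=
    H.evenGp_le_comm (H.mul_mem_evenGp (e1.trans e2.symm))
  have i2 : H.refl (x - y) * H.refl (y - z) ∈ H.isom := H.comm_le_isom m2
  have a1 : (H.refl (x - y) * H.refl (y - z)) x = y := by
    rw [LinearEquiv.mul_apply, H.refl_apply_orth (y := y - z) (v := x)
      (by rw [sub_right, hxy, hxz, sub_zero]), H.refl_map (hx.trans hy.symm) (hxy.trans hyx.symm)]
  have a2 : (H.refl (x - y) * H.refl (y - z)) z = x := by
    rw [LinearEquiv.mul_apply]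
    have h1 : H.refl (y - z) z = y := by
      have h2 : H.refl (y - z) = H.refl (z - y) := by
        have := H.refl_smul (c := (-1 : D)) (neg_ne_zero.mpr one_ne_zero) (z - y)
        rw [neg_smul, one_smul, neg_sub] at this
        exact this
      rw [h2]
      exact H.refl_map (hz.trans hy.symm) (hzy.trans hyz.symm)
    rw [h1]
    have h2 : H.refl (x - y) = H.refl (y - x) := by
      have := H.refl_smul (c := (-1 : D)) (neg_ne_zero.mpr one_ne_zero) (y - x)
      rw [neg_smul, one_smul, neg_sub] at this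
      exact this
    rw [h2]
    exact H.refl_map (hy.trans hx.symm) (hyx.trans hxy.symm)
  have h3 := Subgroup.commutator_mem_commutator m2 m1
  have h4 : ⁅H.refl (x - y) * H.refl (y - z), H.refl x * H.refl z⁆ = H.refl y * H.refl z := by
    rw [commutatorElement_def, conj_refl_prod i2, a1, a2, refl_prod_inv]
    have h5 : H.refl x * H.refl z * (H.refl x)⁻¹ = H.refl z := by
      rw [H.refl_conj (H.refl_mem x), H.refl_apply_orth hzx]
    rw [H.refl_inv, mul_assoc, ← mul_assoc (H.refl x)] at *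
    rw [h5]
  refine ⟨_, h4 ▸ h3, x + y, fun c hc => ?_⟩
  rw [LinearEquiv.mul_apply, map_add, map_add, H.refl_apply_orth hxz, H.refl_apply_orth hyz,
    H.refl_apply_orth hxy, H.refl_self] at hc
  have b1 := congrArg (fun v => H.h v x) hc
  have b2 := congrArg (fun v => H.h v y) hc
  simp only [add_left, neg_left, smul_left, hx, hy, hxy, hyx, neg_zero, add_zero, zero_add,
    mul_one] at b1 b2
  rw [← b1] at b2
  exact neg_ne_self.mpr (one_ne_zero (α := D)) b2

/-- An infinite family of elements of the commutator subgroup, pairwise different up to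
scalars. -/
theorem Rich.family (hR : H.Rich) :
    ∃ (g : ℕ → V ≃ₗ[D] V) (x : V), (∀ n, g n ∈ ⁅H.isom, H.isom⁆) ∧
      ∀ n m : ℕ, ∀ c : D, g n x = c • g m x → n = m := by
  obtain ⟨x, y, z, hx, hy, hz, hxy, hyx, hxz, hzx, hyz, hzy⟩ := hR.triple
  have hw : ∀ n : ℕ, ∃ w : V, H.h w x = 0 ∧ H.h w y = 0 ∧ H.h w w = 1 + (n : D) * n := by
    intro n
    have h1 : (1 + (n : D) * n) ∈ sos D := by
      have := sos_nat (D := D) (1 + n * n)
      push_cast at this
      exact this
    exact hR.univ x y _ h1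
  choose w hwx hwy hww using hw
  have hN : ∀ n : ℕ, H.h (x + (n : D) • y) (x + (n : D) • y) = 1 + (n : D) * n := by
    intro n
    simp only [add_left, add_right, smul_left, smul_right, hx, hy, hxy, hyx, star_natCast,
      mul_zero, zero_mul, add_zero, zero_add, mul_one, one_mul]
  refine ⟨fun n => H.refl (w n) * H.refl (x + (n : D) • y), x, fun n =>
    H.evenGp_le_comm (H.mul_mem_evenGp ((hww n).trans (hN n).symm)), fun n m c h => ?_⟩
  have hxw : ∀ n, H.h x (w n) = 0 := fun n => H.orth_symm (hwx n)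
  have hyw : ∀ n, H.h y (w n) = 0 := fun n => H.orth_symm (hwy n)
  -- the image of `x`
  have himg : ∀ n : ℕ, (H.refl (w n) * H.refl (x + (n : D) • y)) x =
      x - (((1 + (n : D) * n) / 2)⁻¹) • (x + (n : D) • y) := by
    intro n
    have h1 : H.h x (x + (n : D) • y) = 1 := by
      simp only [add_right, smul_right, hx, hxy, zero_mul, add_zero]
    rw [LinearEquiv.mul_apply, H.refl_apply (x + (n : D) • y), h1, hN, one_mul]
    apply H.refl_apply_orth
    simp only [sub_left, smul_left, add_left, hxw, hyw, mul_zero, add_zero, sub_zero]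
  change (H.refl (w n) * H.refl (x + (n : D) • y)) x =
    c • (H.refl (w m) * H.refl (x + (m : D) • y)) x at h
  rw [himg, himg] at h
  have b1 := congrArg (fun v => H.h v x) h
  have b2 := congrArg (fun v => H.h v y) h
  simp only [add_left, sub_left, smul_left, hx, hy, hxy, hyx, mul_zero, add_zero, zero_add,
    mul_one, zero_sub, sub_zero] at b1 b2
  -- rational numbers
  obtain ⟨a, ha⟩ : ∃ a : ℚ, a = 1 - ((1 + (n : ℚ) * n) / 2)⁻¹ := ⟨_, rfl⟩
  obtain ⟨a', ha'⟩ : ∃ a : ℚ, a = 1 - ((1 + (m : ℚ) * m) / 2)⁻¹ := ⟨_, rfl⟩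
  obtain ⟨b, hb⟩ : ∃ a : ℚ, a = ((1 + (n : ℚ) * n) / 2)⁻¹ * n := ⟨_, rfl⟩
  obtain ⟨b', hb'⟩ : ∃ a : ℚ, a = ((1 + (m : ℚ) * m) / 2)⁻¹ * m := ⟨_, rfl⟩
  have c1 : (a : D) = c * (a' : D) := by
    rw [ha, ha']; push_cast; exact b1
  have c2 : (b : D) = c * (b' : D) := by
    rw [hb, hb']; push_cast
    have : -((((1 + (n : D) * n) / 2)⁻¹) * n) = -(c * ((((1 + (m : D) * m) / 2)⁻¹) * m)) := by
      rw [b2, mul_neg]
    exact neg_injective this
  have c3 : ((a * b' : ℚ) : D) = ((b * a' : ℚ) : D) := by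
    push_cast
    rw [c1, c2, mul_assoc, mul_assoc, (Rat.cast_commute a' (b' : D)).eq]
  have c4 : a * b' = b * a' := by exact_mod_cast c3
  have hn1 : (1 + (n : ℚ) * n) ≠ 0 := by positivity
  have hm1 : (1 + (m : ℚ) * m) ≠ 0 := by positivity
  rw [ha, ha', hb, hb'] at c4
  have c5 : ((n : ℚ) - m) * (1 + n * m) = 0 := by
    field_simp at c4
    nlinarith [c4]
  rcases mul_eq_zero.mp c5 with h0 | h0
  · exact_mod_cast sub_eq_zero.mp h0
  · exfalso
    have : (0 : ℚ) < 1 + n * m := by positivity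
    exact this.ne' h0

end AForm

end Vale.Agent.P011S
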