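import Mathlib.GroupTheory.Index
import Mathlib.GroupTheory.Abelianization.Defs
import Mathlib.GroupTheory.QuotientGroup.Basic
import Mathlib.GroupTheory.Subgroup.Simple
import Mathlib.Tactic

/-!
Abstract consequences of a dichotomy for the subgroups of a group `U` normalized by its
commutator subgroup.
-/

namespace Vale.Agent.P011S.Grp

open scoped commutatorElement

variable {W : Type*} [Group W]

/-- The abstract situation: `U` is a subgroup of `W`, `Sc` singles out the scalars, and every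
subgroup of `U` normalized by `⁅U, U⁆` consists of scalars or contains `⁅U, U⁆`. -/
structure Dich (U : Subgroup W) (Sc : W → Prop) : Prop where
  dich : ∀ S ≤ U, (∀ e ∈ ⁅U, U⁆, ∀ g ∈ S, e * g * e⁻¹ ∈ S) → (∀ g ∈ S, Sc g) ∨ ⁅U, U⁆ ≤ S
  comm : ∀ g, Sc g → ∀ h, g * h = h * g
  one : Sc 1
  fam : ∃ g : ℕ → W, (∀ n, g n ∈ ⁅U, U⁆) ∧ ∀ n m, Sc ((g m)⁻¹ * g n) → n = m
  perf : ∃ g ∈ ⁅⁅U, U⁆, ⁅U, U⁆⁆, ¬ Sc g

variable {U : Subgroup W} {Sc : W → Prop}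

theorem comm_le (U : Subgroup W) : ⁅U, U⁆ ≤ U := by
  rw [Subgroup.commutator_le]
  intro a ha b hb
  rw [commutatorElement_def]
  exact mul_mem (mul_mem (mul_mem ha hb) (inv_mem ha)) (inv_mem hb)

theorem conj_comm {e g : W} (he : e ∈ U) (hg : g ∈ ⁅U, U⁆) : e * g * e⁻¹ ∈ ⁅U, U⁆ := by
  have h1 : ⁅e, g⁆ ∈ ⁅U, U⁆ := Subgroup.commutator_mem_commutator he (comm_le U hg)
  have h2 : e * g * e⁻¹ = ⁅e, g⁆ * g := by rw [commutatorElement_def]; group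
  rw [h2]
  exact mul_mem h1 hg

/-- A subgroup meeting `⁅U, U⁆` in a subgroup of finite index contains it. -/
theorem Dich.finite_index (hD : Dich U Sc) {C : Subgroup W} (hC : C.relIndex ⁅U, U⁆ ≠ 0) :
    ⁅U, U⁆ ≤ C := by
  have hfi : (C.subgroupOf ⁅U, U⁆).FiniteIndex := ⟨hC⟩
  have hfc : (C.subgroupOf ⁅U, U⁆).normalCore.FiniteIndex := inferInstance
  rcases hD.dich ((C.subgroupOf ⁅U, U⁆).normalCore.map (⁅U, U⁆ : Subgroup W).subtype)
    ((Subgroup.map_subtype_le _).trans (comm_le U)) (by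
      rintro e he _ ⟨k, hk, rfl⟩
      exact ⟨⟨e, he⟩ * k * ⟨e, he⟩⁻¹,
        (Subgroup.normalCore_normal _).conj_mem k hk ⟨e, he⟩, rfl⟩) with h | h
  · exfalso
    obtain ⟨g, hg, hinj⟩ := hD.fam
    obtain ⟨n, m, hnm, he⟩ := Finite.exists_ne_map_eq_of_infinite
      (fun n => (QuotientGroup.mk (⟨g n, hg n⟩ : (⁅U, U⁆ : Subgroup W)) :
        (⁅U, U⁆ : Subgroup W) ⧸ (C.subgroupOf ⁅U, U⁆).normalCore))
    have h1 : (⟨g m, hg m⟩ : (⁅U, U⁆ : Subgroup W))⁻¹ * ⟨g n, hg n⟩ ∈ (C.subgroupOf ⁅U, U⁆).normalCore :=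
      QuotientGroup.eq.mp he.symm
    exact hnm (hinj n m (h _ ⟨_, h1, rfl⟩))
  · refine h.trans ?_
    rintro _ ⟨k, hk, rfl⟩
    exact Subgroup.normalCore_le (C.subgroupOf ⁅U, U⁆) hk

/-- Subgroups reached from a group between `⁅U, U⁆` and `U` by finitely many steps to a normal
subgroup or to a subgroup of finite index. -/
theorem Dich.chain (hD : Dich U Sc) (n : ℕ) (Γ : ℕ → Subgroup W) (h0 : ⁅U, U⁆ ≤ Γ 0)
    (h0' : Γ 0 ≤ U) (hΓ : ∀ i < n, Γ (i + 1) ≤ Γ i ∧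
      (((Γ (i + 1)).subgroupOf (Γ i)).Normal ∨ (Γ (i + 1)).relIndex (Γ i) ≠ 0)) :
    Γ n ≤ U ∧ ((∀ g ∈ Γ n, Sc g) ∨ ⁅U, U⁆ ≤ Γ n) := by
  induction n with
  | zero => exact ⟨h0', Or.inr h0⟩
  | succ n ih =>
    obtain ⟨ihU, ih⟩ := ih fun i hi => hΓ i (hi.trans n.lt_succ_self)
    obtain ⟨hle, hn⟩ := hΓ n n.lt_succ_self
    refine ⟨hle.trans ihU, ?_⟩
    rcases ih with ih | ih
    · exact Or.inl fun g hg => ih g (hle hg)
    · rcases hn with hn | hn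
      · refine hD.dich _ (hle.trans ihU) ?_
        intro e he g hg
        have := hn.conj_mem ⟨g, hle hg⟩ (by rw [Subgroup.mem_subgroupOf]; exact hg) ⟨e, ih he⟩
        rw [Subgroup.mem_subgroupOf] at this
        exact this
      · exact Or.inr (hD.finite_index fun h => hn (Subgroup.relIndex_eq_zero_of_le_right ih h))

theorem Dich.perfect (hD : Dich U Sc) : ⁅⁅U, U⁆, ⁅U, U⁆⁆ = ⁅U, U⁆ := by
  apply le_antisymm (comm_le _)
  rcases hD.dich ⁅⁅U, U⁆, ⁅U, U⁆⁆ ((comm_le _).trans (comm_le U))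
    (fun e he g hg => conj_comm he hg) with h | h
  · obtain ⟨g, hg, hg'⟩ := hD.perf
    exact absurd (h g hg) hg'
  · exact h

theorem Dich.simple (hD : Dich U Sc) {E : Subgroup W} (hE : E = ⁅U, U⁆) :
    IsSimpleGroup (E ⧸ Subgroup.center E) ∧
      ∃ a b : E ⧸ Subgroup.center E, a * b ≠ b * a := by
  subst hE
  have hnc : ∃ a b : (⁅U, U⁆ : Subgroup W) ⧸ Subgroup.center (⁅U, U⁆ : Subgroup W),
      a * b ≠ b * a := by
    by_contra hcon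
    push Not at hcon
    obtain ⟨g, hg, hg'⟩ := hD.perf
    have h1 : ∀ a ∈ ⁅U, U⁆, ∀ b ∈ ⁅U, U⁆, ∀ c ∈ ⁅U, U⁆, c * ⁅a, b⁆ = ⁅a, b⁆ * c := by
      intro a ha b hb c hc
      have h2 := hcon (QuotientGroup.mk ⟨a, ha⟩) (QuotientGroup.mk ⟨b, hb⟩)
      rw [← QuotientGroup.mk_mul, ← QuotientGroup.mk_mul, QuotientGroup.eq,
        Subgroup.mem_center_iff] at h2
      -- `⁅a, b⁆` is conjugate to the inverse of the central element
      have h3 : (⟨a, ha⟩ * ⟨b, hb⟩ : (⁅U, U⁆ : Subgroup W))⁻¹ * (⟨b, hb⟩ * ⟨a, ha⟩) ∈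
          Subgroup.center (⁅U, U⁆ : Subgroup W) := Subgroup.mem_center_iff.mpr h2
      have h4 := inv_mem h3
      have h5 : ((⟨a, ha⟩ * ⟨b, hb⟩ : (⁅U, U⁆ : Subgroup W))⁻¹ * (⟨b, hb⟩ * ⟨a, ha⟩))⁻¹ =
          ⁅(⟨a, ha⟩ : (⁅U, U⁆ : Subgroup W)), ⟨b, hb⟩⁆ := by
        have h6 := Subgroup.mem_center_iff.mp h4 (⟨b, hb⟩ * ⟨a, ha⟩)
        have h7 : (⟨b, hb⟩ * ⟨a, ha⟩) *
            ((⟨a, ha⟩ * ⟨b, hb⟩ : (⁅U, U⁆ : Subgroup W))⁻¹ * (⟨b, hb⟩ * ⟨a, ha⟩))⁻¹ =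
            ⟨a, ha⟩ * ⟨b, hb⟩ := by group
        rw [commutatorElement_def]
        rw [h7] at h6
        calc _ = ((⟨a, ha⟩ * ⟨b, hb⟩ : (⁅U, U⁆ : Subgroup W))⁻¹ * (⟨b, hb⟩ * ⟨a, ha⟩))⁻¹ *
              (⟨b, hb⟩ * ⟨a, ha⟩) * (⟨b, hb⟩ * ⟨a, ha⟩)⁻¹ := by group
          _ = _ := by rw [← h6]; group
      rw [h5] at h4
      have h6 := Subgroup.mem_center_iff.mp h4 ⟨c, hc⟩
      exact congrArg (Subgroup.subtype _) h6
    have h2 : ⁅⁅⁅U, U⁆, ⁅U, U⁆⁆, ⁅U, U⁆⁆ = ⊥ := by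
      rw [Subgroup.commutator_eq_bot_iff_le_centralizer, Subgroup.commutator_le]
      intro a ha b hb
      rw [Subgroup.mem_centralizer_iff]
      intro c hc
      exact h1 a ha b hb c hc
    rw [hD.perfect, hD.perfect] at h2
    have h3 : g = 1 := by
      have h4 : g ∈ ⁅U, U⁆ := comm_le _ hg
      rw [h2] at h4
      exact Subgroup.mem_bot.mp h4
    exact hg' (h3 ▸ hD.one)
  refine ⟨?_, hnc⟩
  have hnt : Nontrivial ((⁅U, U⁆ : Subgroup W) ⧸ Subgroup.center (⁅U, U⁆ : Subgroup W)) := by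
    obtain ⟨a, b, hab⟩ := hnc
    exact ⟨⟨_, _, hab⟩⟩
  refine { hnt with eq_bot_or_eq_top_of_normal := ?_ }
  intro N hN
  have hN' : (N.comap (QuotientGroup.mk' (Subgroup.center (⁅U, U⁆ : Subgroup W)))).Normal :=
    inferInstance
  rcases hD.dich ((N.comap (QuotientGroup.mk' (Subgroup.center (⁅U, U⁆ : Subgroup W)))).map
    (⁅U, U⁆ : Subgroup W).subtype) ((Subgroup.map_subtype_le _).trans (comm_le U)) (by
      rintro e he _ ⟨k, hk, rfl⟩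
      exact ⟨⟨e, he⟩ * k * ⟨e, he⟩⁻¹, hN'.conj_mem k hk ⟨e, he⟩, rfl⟩) with h | h
  · left
    rw [eq_bot_iff]
    intro x hx
    obtain ⟨k, rfl⟩ := QuotientGroup.mk_surjective x
    have h1 : Sc (k : W) := h _ ⟨k, hx, rfl⟩
    rw [Subgroup.mem_bot, QuotientGroup.eq_one_iff, Subgroup.mem_center_iff]
    intro c
    exact Subtype.ext (hD.comm _ h1 c).symm
  · right
    rw [eq_top_iff]
    intro x _
    obtain ⟨k, rfl⟩ := QuotientGroup.mk_surjective x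
    obtain ⟨k', hk', hkk⟩ := h k.2
    have : k' = k := Subtype.ext hkk
    rw [← this]
    exact hk'

end Vale.Agent.P011S.Grp
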