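import Vale.Agent.P011.H897.Form
import Vale.Agent.P011.H897.Grp
import Vale.Agent.P011.H897.Defs

/-!
The dichotomy for subgroups of the unitary group normalized by its commutator subgroup, and its
consequences.
-/

set_option linter.unusedSectionVars false

open Matrix Module
open scoped commutatorElement

namespace Vale.Agent.P011S

section rep

variable {D : Type} [DivisionRing D] [StarRing D] [FormPos D] [CharZero D]
  [FiniteDimensional ℚ D] {m : ℕ}

theorem rep_scalar {H : Matrix (Fin m) (Fin m) D} {g : UH H} {c : D} (hc : ∀ d, c * d = d * c)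
    (hg : ((g : (Matrix (Fin m) (Fin m) D)ˣ) : Matrix (Fin m) (Fin m) D) =
      Matrix.diagonal fun _ => c) (x : Fin m → D) : rep g x = star c • x := by
  rw [rep_apply]
  have h1 : mat g = Matrix.diagonal fun _ => c := hg
  rw [h1, Matrix.diagonal_conjTranspose]
  ext i
  rw [Matrix.vecMul_diagonal, Pi.smul_apply, smul_eq_mul]
  have h2 := congrArg star (hc (star (x i)))
  rw [star_mul, star_mul, star_star] at h2
  simpa using h2

theorem dich_of {H : Matrix (Fin m) (Fin m) D} (hH : An H) (hR : Room H 2) (hT : TwoRoom H)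
    (hgen : Subgroup.closure (qrPosSet H hH.herm) = ⊤) {θ : D} (hθ : star θ = -θ) (hθ0 : θ ≠ 0)
    (hθc : ∀ x, x * θ = θ * x) : Grp.Dich (UH H) IsCentralScalar where
  dich := by
    intro S hS hN
    by_cases hc : ∃ σ : UH H, (σ : (Matrix (Fin m) (Fin m) D)ˣ) ∈ S ∧
        ∃ x : Matrix (Fin m) Unit D, ∀ c : Matrix Unit Unit D, mat σ * x ≠ x * c
    · right
      obtain ⟨σ, hσ, x, hx⟩ := hc
      have h1 := partI hH hT hgen hθ hθ0 hθc (N := S.subgroupOf (UH H)) (by
        intro e he g hg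
        rw [Subgroup.mem_subgroupOf] at hg ⊢
        refine hN _ ?_ _ hg
        rw [← Subgroup.map_subtype_commutator]
        exact ⟨e, he, rfl⟩) (σ := σ) (by rw [Subgroup.mem_subgroupOf]; exact hσ) hx
      rw [← Subgroup.map_subtype_commutator]
      rintro _ ⟨g, hg, rfl⟩
      exact h1 hg
    · left
      push Not at hc
      intro g hg
      obtain ⟨i0, j0, hij⟩ := exists_ne_of_room hR
      obtain ⟨c, hcc, hcs⟩ := scalar_of_lines hij (hc ⟨g, hS hg⟩ hg)
      exact ⟨c, hcc, hcs⟩
  comm := by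
    rintro g ⟨c, hc, hg⟩ h
    apply Units.ext
    rw [Units.val_mul, Units.val_mul, hg]
    ext i j
    rw [Matrix.mul_diagonal, Matrix.diagonal_mul, hc]
  one := ⟨1, fun d => by rw [one_mul, mul_one], by simp⟩
  fam := by
    obtain ⟨g, x, hg, hinj⟩ := (rich_of_room hH hT).family
    have h1 : ∀ n, ∃ u ∈ commutator (UH H), rep u = g n := by
      intro n
      have := hg n
      rw [← map_commutator_rep hH] at this
      exact this
    choose u hu hug using h1
    refine ⟨fun n => u n, fun n => ?_, ?_⟩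
    · rw [← Subgroup.map_subtype_commutator]
      exact ⟨u n, hu n, rfl⟩
    · rintro n k ⟨c, hc, hs⟩
      apply hinj n k (star c)
      have h2 : rep ((u k)⁻¹ * u n) x = star c • x := rep_scalar hc (by
        simpa using hs) x
      have h3 : rep (u n) x = rep (u k) (rep ((u k)⁻¹ * u n) x) := by
        rw [← LinearEquiv.mul_apply, ← map_mul, mul_inv_cancel_left]
      rw [← hug, ← hug, h3, h2, map_smul]
  perf := by
    obtain ⟨g, hg, v, hv⟩ := (rich_of_room hH hT).perfect_elt
    rw [← map_commutator_rep hH, ← Subgroup.map_commutator] at hg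
    obtain ⟨u, hu, rfl⟩ := hg
    refine ⟨u, ?_, ?_⟩
    · have h0 := Subgroup.map_subtype_commutator (UH H)
      rw [← h0, ← Subgroup.map_commutator]
      exact ⟨u, hu, rfl⟩
    · rintro ⟨c, hc, hs⟩
      exact hv (star c) (rep_scalar hc hs v)

end rep

variable {p : ℕ} {K D F : Type} [Field K] [NumberField K] [StarRing K]
  [DivisionRing D] [StarRing D] [CharZero D] [Algebra K D] [StarModule K D]
  [FiniteDimensional K D] [Field F] [Algebra K F]

theorem comm_le_SU [FormPos D] [FiniteDimensional ℚ D] (f : D →ₐ[K] Matrix (Fin p) (Fin p) F)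
    {m : ℕ} (H : Matrix (Fin m) (Fin m) D) : ⁅UH H, UH H⁆ ≤ SU f H := by
  rw [← Subgroup.map_subtype_commutator]
  rintro _ ⟨e, he, rfl⟩
  exact (mem_SU f).mpr ⟨e.2, rn_commutator f he⟩

theorem dich_anis (hK : ∃ k : K, star k ≠ k) (hpos : IsFormallyPositive D)
    {m : ℕ} (H : Matrix (Fin m) (Fin m) D)
    (hH : IsAnisotropicForm H)
    (hM : HasOrthonormal H (12 * Module.finrank ℚ D) ∨ IsTwoUniversal H) :
    Grp.Dich (UH H) IsCentralScalar := by
  have : FiniteDimensional ℚ D := FiniteDimensional.trans ℚ K D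
  have : FormPos D := hpos.formPos
  have hA : An H := hH.an
  have hU : IsTwoUniversal H := by
    rcases hM with ⟨M, e, hM, he⟩ | h
    · apply IsTwoUniversal.of_room
      apply room_of_frame hA.herm e he
      calc 4 * (3 * Module.finrank ℚ D) = 12 * Module.finrank ℚ D := by ring
        _ ≤ M := hM
    · exact h
  have hR : Room H 2 := hU.room hA.herm
  obtain ⟨N0, ⟨ρ⟩⟩ := exists_iota (D := D)
  obtain ⟨θ, hθ0, hθ, hθs⟩ : ∃ θ : D, θ ≠ 0 ∧ (∀ x, x * θ = θ * x) ∧ star θ = -θ := by
    obtain ⟨k, hk⟩ := hK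
    refine ⟨algebraMap K D (k - star k), ?_, ?_, ?_⟩
    · rw [Ne, map_eq_zero]
      exact sub_ne_zero.mpr (Ne.symm hk)
    · intro x
      exact (Algebra.commutes _ x).symm
    · rw [← algebraMap_star_comm, star_sub, star_star, ← map_neg, neg_sub]
  have hgen : Subgroup.closure (qrPosSet H hA.herm) = ⊤ :=
    closure_qrPos hA hR le_rfl ρ hθs hθ0 hθ
  exact dich_of hA hR hU.twoRoom hgen hθs hθ0 hθ

namespace Grp

variable {W : Type} [Group W] {U : Subgroup W} {Sc : W → Prop}

theorem Dich.reached (hD : Dich U Sc) {G : Subgroup W} (hE : ⁅U, U⁆ ≤ G) (hU : G ≤ U)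
    {S : Subgroup G} (hS : IsReached S) :
    (∀ g ∈ S, Sc (g : W)) ∨ ⁅U, U⁆ ≤ S.map G.subtype := by
  obtain ⟨n, Γ, h0, hn, hΓ⟩ := hS
  have h1 := (hD.chain n (fun i => (Γ i).map G.subtype) ?_ ?_ ?_).2
  · rw [hn] at h1
    rcases h1 with h1 | h1
    · exact Or.inl fun g hg => h1 _ ⟨g, hg, rfl⟩
    · exact Or.inr h1
  · intro e he
    rw [h0]
    exact ⟨⟨e, hE he⟩, trivial, rfl⟩
  · exact (Subgroup.map_subtype_le _).trans hU
  · intro i hi
    obtain ⟨hle, h2⟩ := hΓ i hi
    refine ⟨Subgroup.map_mono hle, ?_⟩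
    rcases h2 with h2 | h2
    · left
      refine ⟨?_⟩
      rintro ⟨_, ⟨k, hk, rfl⟩⟩ hg ⟨_, ⟨l, hl, rfl⟩⟩
      rw [Subgroup.mem_subgroupOf] at hg ⊢
      obtain ⟨k', hk', hkk⟩ := hg
      have hkk' : k' = k := Subtype.ext hkk
      subst hkk'
      have h3 := h2.conj_mem ⟨k', hk⟩ (by rw [Subgroup.mem_subgroupOf]; exact hk') ⟨l, hl⟩
      rw [Subgroup.mem_subgroupOf] at h3
      exact ⟨_, h3, rfl⟩
    · right
      rw [Subgroup.relIndex_map_map_of_injective _ _ G.subtype_injective]
      exact h2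

end Grp

end Vale.Agent.P011S
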