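import Vale.Agent.P011.H897.Weak
import Vale.Agent.P011.H897.Main

/-!
All clauses of the theorem on subgroups of the special unitary group, deduced from Part I
(`hpart`), room orthogonally to one vector and dimension at least three.
-/

set_option linter.unusedSectionVars false

open Matrix Module
open scoped commutatorElement

namespace Vale.Agent.P011S

/-- Conclusion of Part I for the form `H`: a subgroup of the unitary group normalized by the
commutator subgroup and containing an element moving a line contains the commutator subgroup. -/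
def PartOne {D : Type} [DivisionRing D] [StarRing D] {μ : Type} [Fintype μ] [DecidableEq μ]
    (H : Matrix μ μ D) : Prop :=
  ∀ N : Subgroup (UH H), (∀ e ∈ commutator (UH H), ∀ g ∈ N, e * g * e⁻¹ ∈ N) →
    ∀ σ ∈ N, (∃ x : Matrix μ Unit D, ∀ c : Matrix Unit Unit D, mat σ * x ≠ x * c) →
    commutator (UH H) ≤ N

section rep

variable {D : Type} [DivisionRing D] [StarRing D] [FormPos D] [CharZero D]
  [FiniteDimensional ℚ D] {m : ℕ}

theorem rich1_of_room {H : Matrix (Fin m) (Fin m) D} (hH : An H) (hR : Room H 2) (h3 : 3 ≤ m) :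
    (rowForm H hH).Rich1 := by
  refine ⟨fun x p hp => ?_, fun x y => ?_⟩
  · obtain ⟨X, hX1, hX2⟩ := hR Unit Unit (by simp) (cv x)
      (Matrix.diagonal fun _ => p) (PSD.diagonal fun _ => HSq_of_sos hp)
    have hrv : ∀ v : Fin m → D, rv (cv v) = v := by
      intro v; ext i; simp only [rv, cv, of_apply, star_star]
    refine ⟨rv X, ?_, ?_⟩
    · apply AForm.orth_symm
      rw [rowForm_h, cv_rv, hX2]; rfl
    · rw [rowForm_h, cv_rv, hX1]; simp
  · let φ : (Fin m → D) →ₗ[D] (Fin 2 → D) :=
      { toFun := fun z => ![(rowForm H hH).h z x, (rowForm H hH).h z y]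
        map_add' := fun z z' => by
          ext i; fin_cases i <;> simp [AForm.add_left]
        map_smul' := fun c z => by
          ext i; fin_cases i <;> simp [AForm.smul_left] }
    have h1 : LinearMap.ker φ ≠ ⊥ := by
      intro hb
      have h2 := LinearMap.finrank_le_finrank_of_injective (LinearMap.ker_eq_bot.mp hb)
      rw [Module.finrank_fin_fun, Module.finrank_fin_fun] at h2
      omega
    obtain ⟨z, hz, hz0⟩ := (Submodule.ne_bot_iff _).mp h1
    have h2 := LinearMap.mem_ker.mp hz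
    exact ⟨z, hz0, congrFun h2 0, congrFun h2 1⟩

theorem dich_of_part {H : Matrix (Fin m) (Fin m) D} (hH : An H) (hR : Room H 2) (h3 : 3 ≤ m)
    (hpart : PartOne H) : Grp.Dich (UH H) IsCentralScalar where
  dich := by
    intro S hS hN
    by_cases hc : ∃ σ : UH H, (σ : (Matrix (Fin m) (Fin m) D)ˣ) ∈ S ∧
        ∃ x : Matrix (Fin m) Unit D, ∀ c : Matrix Unit Unit D, mat σ * x ≠ x * c
    · right
      obtain ⟨σ, hσ, x, hx⟩ := hc
      have h1 := hpart (S.subgroupOf (UH H)) (by
        intro e he g hg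
        rw [Subgroup.mem_subgroupOf] at hg ⊢
        refine hN _ ?_ _ hg
        rw [← Subgroup.map_subtype_commutator]
        exact ⟨e, he, rfl⟩) σ (by rw [Subgroup.mem_subgroupOf]; exact hσ) ⟨x, hx⟩
      rw [← Subgroup.map_subtype_commutator]
      rintro _ ⟨g, hg, rfl⟩
      exact h1 hg
    · left
      push Not at hc
      intro g hg
      obtain ⟨i0, j0, hij⟩ := exists_ne_of_room hR
      obtain ⟨c, hcc, hcs⟩ := scalar_of_lines hij (hc ⟨g, hS hg⟩ hg)
      exact ⟨c, hcc, hcs⟩
  comm := by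
    rintro g ⟨c, hc, hg⟩ h
    apply Units.ext
    rw [Units.val_mul, Units.val_mul, hg]
    ext i j
    rw [Matrix.mul_diagonal, Matrix.diagonal_mul, hc]
  one := ⟨1, fun d => by rw [one_mul, mul_one], by simp⟩
  fam := by
    obtain ⟨g, x, hg, hinj⟩ := (rich1_of_room hH hR h3).family
    have h1 : ∀ n, ∃ u ∈ commutator (UH H), rep u = g n := by
      intro n
      have := hg n
      rw [← map_commutator_rep hH] at this
      exact this
    choose u hu hug using h1
    refine ⟨fun n => u n, fun n => ?_, ?_⟩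
    · rw [← Subgroup.map_subtype_commutator]
      exact ⟨u n, hu n, rfl⟩
    · rintro n k ⟨c, hc, hs⟩
      apply hinj n k (star c)
      have h2 : rep ((u k)⁻¹ * u n) x = star c • x := rep_scalar hc (by
        simpa using hs) x
      have h3 : rep (u n) x = rep (u k) (rep ((u k)⁻¹ * u n) x) := by
        rw [← LinearEquiv.mul_apply, ← map_mul, mul_inv_cancel_left]
      rw [← hug, ← hug, h3, h2, map_smul]
  perf := by
    obtain ⟨g, hg, v, hv⟩ := (rich1_of_room hH hR h3).perfect_elt
    rw [← map_commutator_rep hH, ← Subgroup.map_commutator] at hg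
    obtain ⟨u, hu, rfl⟩ := hg
    refine ⟨u, ?_, ?_⟩
    · have h0 := Subgroup.map_subtype_commutator (UH H)
      rw [← h0, ← Subgroup.map_commutator]
      exact ⟨u, hu, rfl⟩
    · rintro ⟨c, hc, hs⟩
      exact hv (star c) (rep_scalar hc hs v)

end rep

variable {p : ℕ} {K D F : Type} [Field K] [NumberField K] [StarRing K]
  [DivisionRing D] [StarRing D] [CharZero D] [Algebra K D] [StarModule K D]
  [FiniteDimensional K D] [Field F] [Algebra K F]

/-- The theorem on normal subgroups, from Part I. -/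
theorem normal_of_part [Algebra.IsCentral K D]
    (hK : ∃ k : K, star k ≠ k) (hpos : IsFormallyPositive D)
    (hdeg : finrank K D = p ^ 2)
    (f : D →ₐ[K] Matrix (Fin p) (Fin p) F) {m : ℕ} (H : Matrix (Fin m) (Fin m) D)
    (hH : IsAnisotropicForm H) (hR : Room H 2) (hpart : PartOne H)
    (N : Subgroup (SU f H)) [hN : N.Normal] :
    N ≤ Subgroup.center (SU f H) ∨
      (ContainsCommutators f H N ∧ IsQuotientOfSUK f (SU f H ⧸ N) ∧
        (Squarefree p → N = ⊤)) := by
  have : FiniteDimensional ℚ D := FiniteDimensional.trans ℚ K D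
  have : FormPos D := hpos.formPos
  have hA : An H := hH.an
  obtain ⟨N0, ⟨ρ⟩⟩ := exists_iota (D := D)
  obtain ⟨θ, hθ0, hθ, hθs⟩ : ∃ θ : D, θ ≠ 0 ∧ (∀ x, x * θ = θ * x) ∧ star θ = -θ := by
    obtain ⟨k, hk⟩ := hK
    refine ⟨algebraMap K D (k - star k), ?_, ?_, ?_⟩
    · rw [Ne, map_eq_zero]
      exact sub_ne_zero.mpr (Ne.symm hk)
    · intro x
      exact (Algebra.commutes _ x).symm
    · rw [← algebraMap_star_comm, star_sub, star_star, ← map_neg, neg_sub]
  rcases normal_any_of hK ρ f H hH hR hpart N with h | ⟨h1, h2⟩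
  · exact Or.inl h
  · refine Or.inr ⟨h1, h2, fun hp => ?_⟩
    obtain ⟨c, c', hc⟩ := exists_good (K := K) (D := D) hK
    obtain ⟨G⟩ := exists_globF ρ hA hR (by norm_num) hc hθ hθs hθ0
    refine eq_top_of_kill' f hA hR (by norm_num) G hθ0 hθ hθs N ?_ ?_
    · rw [commutator_def, Subgroup.commutator_le]
      intro a _ b _
      obtain ⟨n, hn, hn'⟩ := h1 a a.2 b b.2
      exact ⟨n, hn, Subtype.ext hn'⟩
    · intro Z hZ0 hZ
      exact suk_sqfree (K := K) G.F G.mul G.sym hp hdeg hK f hZ0 hZ

section fin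

variable (f : D →ₐ[K] Matrix (Fin p) (Fin p) F) {m : ℕ} (H : Matrix (Fin m) (Fin m) D)

/-- The statement on normal subgroups for `H`. -/
def NormalPart {K D F : Type} [Field K] [DivisionRing D] [StarRing D] [Algebra K D]
    [Field F] [Algebra K F] {p : ℕ} (f : D →ₐ[K] Matrix (Fin p) (Fin p) F) {m : ℕ}
    (H : Matrix (Fin m) (Fin m) D) : Prop :=
  ∀ (N : Subgroup (SU f H)) [N.Normal],
      N ≤ Subgroup.center (SU f H) ∨
        (ContainsCommutators f H N ∧ IsQuotientOfSUK f (SU f H ⧸ N) ∧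
          (Squarefree p → N = ⊤))

/-- A subgroup of the special unitary group containing the commutator subgroup of the unitary
group is normal, and the quotient is as in the theorem on normal subgroups. -/
theorem large_of_comm_le (hD : Grp.Dich (UH H) IsCentralScalar) (hnorm : NormalPart f H)
    (S : Subgroup (SU f H)) (hS : ⁅UH H, UH H⁆ ≤ S.map (SU f H).subtype) :
    IsLarge f H S := by
  have hN : S.Normal := by
    refine ⟨fun n hn g => ?_⟩
    have h1 : ⁅(g : (Matrix (Fin m) (Fin m) D)ˣ), (n : (Matrix (Fin m) (Fin m) D)ˣ)⁆ ∈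
        ⁅UH H, UH H⁆ := Subgroup.commutator_mem_commutator g.2.1 n.2.1
    obtain ⟨k, hk, hk'⟩ := hS h1
    have h2 : g * n * g⁻¹ = k * n := by
      apply Subtype.ext
      have h3 : (k : (Matrix (Fin m) (Fin m) D)ˣ) = ⁅(g : (Matrix (Fin m) (Fin m) D)ˣ),
        (n : (Matrix (Fin m) (Fin m) D)ˣ)⁆ := hk'
      rw [Subgroup.coe_mul, Subgroup.coe_mul, Subgroup.coe_mul, Subgroup.coe_inv, h3,
        commutatorElement_def]
      group
    rw [h2]
    exact mul_mem hk hn
  refine ⟨hN, ?_⟩
  rcases hnorm S with h | h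
  · exfalso
    obtain ⟨g, hg, hg'⟩ := hD.perf
    have h1 : ⁅(⁅UH H, UH H⁆ : Subgroup (Matrix (Fin m) (Fin m) D)ˣ), ⁅UH H, UH H⁆⁆ = ⊥ := by
      rw [Subgroup.commutator_eq_bot_iff_le_centralizer]
      intro a ha
      rw [Subgroup.mem_centralizer_iff]
      intro b hb
      obtain ⟨a', ha', rfl⟩ := hS ha
      obtain ⟨b', -, rfl⟩ := hS hb
      exact congrArg (SU f H).subtype (Subgroup.mem_center_iff.mp (h ha') b')
    rw [h1, Subgroup.mem_bot] at hg
    exact hg' (hg ▸ hD.one)
  · exact h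

theorem center_of_scalar {S : Subgroup (SU f H)}
    (h : ∀ g ∈ S, IsCentralScalar (g : (Matrix (Fin m) (Fin m) D)ˣ)) :
    S ≤ Subgroup.center (SU f H) := by
  intro s hs
  obtain ⟨c, hc, hg⟩ := h s hs
  rw [Subgroup.mem_center_iff]
  intro g
  apply Subtype.ext
  apply Units.ext
  rw [Subgroup.coe_mul, Subgroup.coe_mul, Units.val_mul, Units.val_mul, hg]
  ext i j
  rw [Matrix.mul_diagonal, Matrix.diagonal_mul, hc]

/-- All clauses. -/
def AllClauses {K D F : Type} [Field K] [DivisionRing D] [StarRing D] [Algebra K D]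
    [Field F] [Algebra K F] {p : ℕ} (f : D →ₐ[K] Matrix (Fin p) (Fin p) F) {m : ℕ}
    (H : Matrix (Fin m) (Fin m) D) : Prop :=
    (∀ (N : Subgroup (SU f H)) [N.Normal],
      N ≤ Subgroup.center (SU f H) ∨
        (ContainsCommutators f H N ∧ IsQuotientOfSUK f (SU f H ⧸ N) ∧
          (Squarefree p → N = ⊤))) ∧
    (∀ S T : Subgroup (SU f H), IsReached T → ¬ T ≤ Subgroup.center (SU f H) →
      (∀ t ∈ T, ∀ s ∈ S, t * s * t⁻¹ ∈ S) →
      S ≤ Subgroup.center (SU f H) ∨ IsLarge f H S) ∧
    (∀ S : Subgroup (SU f H), S.index ≠ 0 → IsLarge f H S) ∧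
    HasDichotomy H ∧
    IsQuasisimple ⁅UH H, UH H⁆ ∧ (Squarefree p → SU f H = ⁅UH H, UH H⁆)

theorem all_of_dich [FormPos D] [FiniteDimensional ℚ D]
    (hD : Grp.Dich (UH H) IsCentralScalar) (hnorm : NormalPart f H) : AllClauses f H := by
  refine ⟨fun N _ => hnorm N, ?_, ?_,
    ⟨hD.dich, fun G hE hU S hS => hD.reached hE hU hS⟩,
    ⟨hD.perfect, (hD.simple rfl).1, (hD.simple rfl).2⟩, fun hp => ?_⟩
  · intro S T hT hT' hST
    have hTE : ⁅UH H, UH H⁆ ≤ T.map (SU f H).subtype := by
      rcases hD.reached (comm_le_SU f H) inf_le_left hT with h | h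
      · exact absurd (center_of_scalar f H h) hT'
      · exact h
    rcases hD.dich (S.map (SU f H).subtype)
      ((Subgroup.map_subtype_le _).trans inf_le_left) (by
        rintro e he _ ⟨s, hs, rfl⟩
        obtain ⟨t, ht, rfl⟩ := hTE he
        exact ⟨t * s * t⁻¹, hST t ht s hs, rfl⟩) with h | h
    · exact Or.inl (center_of_scalar f H fun g hg => h _ ⟨g, hg, rfl⟩)
    · exact Or.inr (large_of_comm_le f H hD hnorm S h)
  · intro S hS
    apply large_of_comm_le f H hD hnorm S
    apply hD.finite_index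
    intro h0
    apply hS
    have h1 := Subgroup.relIndex_eq_zero_of_le_right (comm_le_SU f H) h0
    have h2 : (S.map (SU f H).subtype).relIndex ((⊤ : Subgroup (SU f H)).map (SU f H).subtype) =
        S.relIndex ⊤ := Subgroup.relIndex_map_map_of_injective _ _ (SU f H).subtype_injective
    rw [← MonoidHom.range_eq_map, Subgroup.range_subtype, h1, Subgroup.relIndex_top_right] at h2
    exact h2.symm
  · apply le_antisymm _ (comm_le_SU f H)
    obtain ⟨-, -, -, h1⟩ := large_of_comm_le f H hD hnorm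
      ((⁅UH H, UH H⁆ : Subgroup (Matrix (Fin m) (Fin m) D)ˣ).subgroupOf (SU f H)) (by
        intro e he
        exact ⟨⟨e, comm_le_SU f H he⟩, he, rfl⟩)
    intro g hg
    have h2 : (⟨g, hg⟩ : SU f H) ∈
        (⁅UH H, UH H⁆ : Subgroup (Matrix (Fin m) (Fin m) D)ˣ).subgroupOf (SU f H) := by
      rw [h1 hp]; trivial
    exact h2

end fin

/-- All clauses, from Part I, room orthogonally to one vector and `m ≥ 3`. -/
theorem all_of_part [Algebra.IsCentral K D]
    (hK : ∃ k : K, star k ≠ k) (hpos : IsFormallyPositive D)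
    (hdeg : finrank K D = p ^ 2)
    (f : D →ₐ[K] Matrix (Fin p) (Fin p) F) {m : ℕ} (H : Matrix (Fin m) (Fin m) D)
    (hH : IsAnisotropicForm H) (hR : Room H 2) (h3 : 3 ≤ m) (hpart : PartOne H) :
    AllClauses f H := by
  have : FiniteDimensional ℚ D := FiniteDimensional.trans ℚ K D
  have : FormPos D := hpos.formPos
  exact all_of_dich f H (dich_of_part hH.an hR h3 hpart)
    (fun N _ => normal_of_part hK hpos hdeg f H hH hR hpart N)

/-- Part I under the old hypothesis. -/
theorem partOne_old (hK : ∃ k : K, star k ≠ k) (hpos : IsFormallyPositive D)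
    {m : ℕ} (H : Matrix (Fin m) (Fin m) D)
    (hH : IsAnisotropicForm H)
    (hM : HasOrthonormal H (12 * Module.finrank ℚ D) ∨ IsTwoUniversal H) :
    PartOne H ∧ Grp.Dich (UH H) IsCentralScalar := by
  have : FiniteDimensional ℚ D := FiniteDimensional.trans ℚ K D
  have : FormPos D := hpos.formPos
  have hA : An H := hH.an
  have hU : IsTwoUniversal H := by
    rcases hM with ⟨M, e, hM, he⟩ | h
    · apply IsTwoUniversal.of_room
      apply room_of_frame hA.herm e he
      calc 4 * (3 * Module.finrank ℚ D) = 12 * Module.finrank ℚ D := by ring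
        _ ≤ M := hM
    · exact h
  have hR : Room H 2 := hU.room hA.herm
  obtain ⟨N0, ⟨ρ⟩⟩ := exists_iota (D := D)
  obtain ⟨θ, hθ0, hθ, hθs⟩ : ∃ θ : D, θ ≠ 0 ∧ (∀ x, x * θ = θ * x) ∧ star θ = -θ := by
    obtain ⟨k, hk⟩ := hK
    refine ⟨algebraMap K D (k - star k), ?_, ?_, ?_⟩
    · rw [Ne, map_eq_zero]
      exact sub_ne_zero.mpr (Ne.symm hk)
    · intro x
      exact (Algebra.commutes _ x).symm
    · rw [← algebraMap_star_comm, star_sub, star_star, ← map_neg, neg_sub]
  have hgen : Subgroup.closure (qrPosSet H hA.herm) = ⊤ :=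
    closure_qrPos hA hR le_rfl ρ hθs hθ0 hθ
  refine ⟨?_, dich_anis hK hpos H hH hM⟩
  rintro N' hN' σ hσ ⟨x, hx⟩
  exact partI hA hU.twoRoom hgen hθs hθ0 hθ hN' hσ hx

end Vale.Agent.P011S
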