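import Vale.Agent.P011.Bdl.B2

/-!
A nonscalar element of the second derived group, and an infinite family of pairwise
non-proportional elements of the commutator subgroup of the isometry group, from room orthogonally
to one vector and dimension at least three.
-/

set_option linter.unusedSectionVars false
set_option linter.unusedSimpArgs false

namespace Vale.Agent.P011S

open Module
open scoped commutatorElement

variable {D V : Type*} [DivisionRing D] [StarRing D] [AddCommGroup V] [Module D V] [CharZero D]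

namespace AForm

variable {H : AForm D V}

/-- Room orthogonally to one vector, and dimension at least three. -/
structure Rich1 (H : AForm D V) : Prop where
  univ : ∀ (x : V) (p : D), p ∈ sos D → ∃ v, H.h v x = 0 ∧ H.h v v = p
  three : ∀ x y : V, ∃ z, z ≠ 0 ∧ H.h z x = 0 ∧ H.h z y = 0

/-- In `E = ⁅isom, isom⁆` the derived group `⁅E, E⁆` contains a nonscalar element. -/
theorem Rich1.perfect_elt (hR : H.Rich1) :
    ∃ g ∈ ⁅⁅H.isom, H.isom⁆, ⁅H.isom, H.isom⁆⁆, ∃ v : V, ∀ c : D, g v ≠ c • v := by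
  obtain ⟨b, -, hb⟩ := hR.univ 0 1 sos_one
  obtain ⟨a, hab, ha⟩ := hR.univ b 1 sos_one
  have hba := H.orth_symm hab
  -- a nonzero vector orthogonal to both, of norm different from one
  obtain ⟨z, hz0, hza, hzb, hz1⟩ : ∃ z : V, z ≠ 0 ∧ H.h z a = 0 ∧ H.h z b = 0 ∧ H.h z z ≠ 1 := by
    obtain ⟨z, hz0, hza, hzb⟩ := hR.three a b
    by_cases h1 : H.h z z = 1
    · refine ⟨(2 : D) • z, smul_ne_zero two_ne_zero hz0, ?_, ?_, ?_⟩
      · rw [H.smul_left, hza, mul_zero]
      · rw [H.smul_left, hzb, mul_zero]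
      · rw [H.smul_left, H.smul_right, h1, one_mul, star_ofNat]
        norm_num
    · exact ⟨z, hz0, hza, hzb, h1⟩
  have haz := H.orth_symm hza
  have hbz := H.orth_symm hzb
  have hN : H.h (a + z) (a + z) = 1 + H.h z z := by
    rw [H.add_left, H.add_right, H.add_right, ha, haz, hza, add_zero, zero_add]
  have hN0 : H.h (a + z) (a + z) ≠ 0 := by
    apply H.self_ne_zero
    intro h0
    have h1 : H.h (a + z) a = 0 := by rw [h0, H.zero_left]
    rw [H.add_left, ha, hza, add_zero] at h1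
    exact one_ne_zero h1
  have haaz : H.h a (a + z) = 1 := by rw [H.add_right, ha, haz, add_zero]
  -- the second vector of norm one
  obtain ⟨r, hr⟩ : ∃ r : D, r = (H.h (a + z) (a + z) / 2)⁻¹ := ⟨_, rfl⟩
  have hr0 : r ≠ 0 := by rw [hr]; exact inv_ne_zero (div_ne_zero hN0 two_ne_zero)
  have hr1 : r ≠ 1 := by
    intro h1
    rw [hr] at h1
    have h2 : H.h (a + z) (a + z) / 2 = 1 := inv_eq_one.mp h1
    rw [hN, div_eq_one_iff_eq two_ne_zero] at h2
    apply hz1
    have : H.h z z = 2 - 1 := by rw [← h2]; abel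
    rw [this]; norm_num
  obtain ⟨d, hd⟩ : ∃ d : V, d = a - r • (a + z) := ⟨_, rfl⟩
  have hd' : H.refl (a + z) a = d := by
    rw [H.refl_apply, haaz, one_mul, hd, hr]
  have hdd : H.h d d = 1 := by
    rw [← hd', H.isom_apply (H.refl_mem _), ha]
  have hdb : H.h d b = 0 := by
    rw [hd, H.sub_left, H.smul_left, H.add_left, hab, hzb, add_zero, mul_zero, sub_zero]
  have hda : H.h d a = 1 - r := by
    rw [hd, H.sub_left, H.smul_left, H.add_left, ha, hza, add_zero, mul_one]
  have hda0 : H.h d a ≠ 0 := by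
    rw [hda]; exact sub_ne_zero.mpr (Ne.symm hr1)
  have had0 : H.h a d ≠ 0 := fun h => hda0 (H.orth_symm h)
  have hdz : H.h d z ≠ 0 := by
    rw [hd, H.sub_left, H.smul_left, H.add_left, haz, zero_add, zero_sub]
    exact neg_ne_zero.mpr (mul_ne_zero hr0 (H.self_ne_zero hz0))
  -- the element `f` and the vector `f a`
  have mf : H.refl a * H.refl d ∈ ⁅H.isom, H.isom⁆ :=
    H.evenGp_le_comm (H.mul_mem_evenGp (ha.trans hdd.symm))
  have me : H.refl a * H.refl b ∈ ⁅H.isom, H.isom⁆ :=
    H.evenGp_le_comm (H.mul_mem_evenGp (ha.trans hb.symm))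
  have hfi : H.refl a * H.refl d ∈ H.isom := H.comm_le_isom mf
  have hfb : (H.refl a * H.refl d) b = b := by
    rw [LinearEquiv.mul_apply, H.refl_apply_orth (y := d) (v := b) (H.orth_symm hdb),
      H.refl_apply_orth hba]
  obtain ⟨a', ha'⟩ : ∃ a' : V, a' = (H.refl a * H.refl d) a := ⟨_, rfl⟩
  have ha'z : H.h a' z ≠ 0 := by
    have h1 : H.h a' z = H.h (H.refl d a) z := by
      rw [ha', LinearEquiv.mul_apply, H.refl_apply, H.sub_left, H.smul_left, haz, mul_zero,
        sub_zero]
    rw [h1, H.refl_apply, H.sub_left, H.smul_left, haz, zero_sub, hdd]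
    refine neg_ne_zero.mpr (mul_ne_zero (mul_ne_zero had0 ?_) hdz)
    exact inv_ne_zero (div_ne_zero one_ne_zero two_ne_zero)
  have ha'line : ∀ c : D, a' ≠ c • a := by
    intro c hc
    apply ha'z
    rw [hc, H.smul_left, haz, mul_zero]
  have ha'b : H.h a' b = 0 := by
    rw [ha']
    conv_lhs => rw [← hfb]
    rw [H.isom_apply hfi, hab]
  have hcomm : ⁅H.refl a * H.refl b, H.refl a * H.refl d⁆ = H.refl a * H.refl a' := by
    rw [commutatorElement_def]
    have h1 := conj_refl_prod hfi b a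
    rw [hfb, ← ha'] at h1
    have h2 : H.refl a * H.refl b * (H.refl a * H.refl d) * (H.refl a * H.refl b)⁻¹ *
        (H.refl a * H.refl d)⁻¹ = H.refl a * H.refl b *
        (H.refl a * H.refl d * (H.refl b * H.refl a) * (H.refl a * H.refl d)⁻¹) := by
      rw [refl_prod_inv a b]; group
    rw [h2, h1, mul_assoc, ← mul_assoc (H.refl b), H.refl_mul_self, one_mul]
  refine ⟨_, Subgroup.commutator_mem_commutator me mf, a' + b, fun c hc => ?_⟩
  rw [hcomm, LinearEquiv.mul_apply, map_add, H.refl_self,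
    H.refl_apply_orth (y := a') (v := b) (H.orth_symm ha'b), map_add, map_neg,
    H.refl_apply_orth (y := a) (v := b) hba, H.refl_apply] at hc
  -- inner product with `b`
  have h1 := congrArg (fun v => H.h v b) hc
  simp only [H.add_left, H.neg_left, H.sub_left, H.smul_left, ha'b, hab, hb, mul_zero, sub_zero,
    neg_zero, zero_add, mul_one] at h1
  rw [← h1, one_smul] at hc
  have h2 : (H.h a' a * (H.h a a / 2)⁻¹) • a = (2 : D) • a' := by
    have h3 := add_right_cancel hc
    rw [neg_sub, sub_eq_iff_eq_add] at h3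
    rw [h3, two_smul]
  apply ha'line ((2 : D)⁻¹ * (H.h a' a * (H.h a a / 2)⁻¹))
  rw [mul_smul, h2, smul_smul, inv_mul_cancel₀ two_ne_zero, one_smul]

/-- An infinite family of elements of the commutator subgroup, pairwise different up to
scalars. -/
theorem Rich1.family (hR : H.Rich1) :
    ∃ (g : ℕ → V ≃ₗ[D] V) (x : V), (∀ n, g n ∈ ⁅H.isom, H.isom⁆) ∧
      ∀ n m : ℕ, ∀ c : D, g n x = c • g m x → n = m := by
  obtain ⟨x, -, hx⟩ := hR.univ 0 1 sos_one
  obtain ⟨y, hyx, hy⟩ := hR.univ x 1 sos_one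
  have hxy := H.orth_symm hyx
  have hw : ∀ n : ℕ, ∃ w : V, H.h w x = 0 ∧ H.h w w = 1 + (n : D) * n := by
    intro n
    have h1 : (1 + (n : D) * n) ∈ sos D := by
      have := sos_nat (D := D) (1 + n * n)
      push_cast at this
      exact this
    exact hR.univ x _ h1
  choose w hwx hww using hw
  have hN : ∀ n : ℕ, H.h (x + (n : D) • y) (x + (n : D) • y) = 1 + (n : D) * n := by
    intro n
    simp only [add_left, add_right, smul_left, smul_right, hx, hy, hxy, hyx, star_natCast,
      mul_zero, zero_mul, add_zero, zero_add, mul_one, one_mul]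
  refine ⟨fun n => H.refl (x + (n : D) • y) * H.refl (w n), x, fun n =>
    H.evenGp_le_comm (H.mul_mem_evenGp ((hN n).trans (hww n).symm)), fun n m c h => ?_⟩
  -- the image of `x`
  have himg : ∀ n : ℕ, (H.refl (x + (n : D) • y) * H.refl (w n)) x =
      x - (((1 + (n : D) * n) / 2)⁻¹) • (x + (n : D) • y) := by
    intro n
    have h1 : H.h x (x + (n : D) • y) = 1 := by
      simp only [add_right, smul_right, hx, hxy, zero_mul, add_zero]
    rw [LinearEquiv.mul_apply, H.refl_apply_orth (H.orth_symm (hwx n)),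
      H.refl_apply (x + (n : D) • y), h1, hN, one_mul]
  change (H.refl (x + (n : D) • y) * H.refl (w n)) x =
    c • (H.refl (x + (m : D) • y) * H.refl (w m)) x at h
  rw [himg, himg] at h
  have b1 := congrArg (fun v => H.h v x) h
  have b2 := congrArg (fun v => H.h v y) h
  simp only [add_left, sub_left, smul_left, hx, hy, hxy, hyx, mul_zero, add_zero, zero_add,
    mul_one, zero_sub, sub_zero] at b1 b2
  -- rational numbers
  obtain ⟨a, ha⟩ : ∃ a : ℚ, a = 1 - ((1 + (n : ℚ) * n) / 2)⁻¹ := ⟨_, rfl⟩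
  obtain ⟨a', ha'⟩ : ∃ a : ℚ, a = 1 - ((1 + (m : ℚ) * m) / 2)⁻¹ := ⟨_, rfl⟩
  obtain ⟨b, hb⟩ : ∃ a : ℚ, a = ((1 + (n : ℚ) * n) / 2)⁻¹ * n := ⟨_, rfl⟩
  obtain ⟨b', hb'⟩ : ∃ a : ℚ, a = ((1 + (m : ℚ) * m) / 2)⁻¹ * m := ⟨_, rfl⟩
  have c1 : (a : D) = c * (a' : D) := by
    rw [ha, ha']; push_cast; exact b1
  have c2 : (b : D) = c * (b' : D) := by
    rw [hb, hb']; push_cast
    have : -((((1 + (n : D) * n) / 2)⁻¹) * n) = -(c * ((((1 + (m : D) * m) / 2)⁻¹) * m)) := by
      rw [b2, mul_neg]
    exact neg_injective this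
  have c3 : ((a * b' : ℚ) : D) = ((b * a' : ℚ) : D) := by
    push_cast
    rw [c1, c2, mul_assoc, mul_assoc, (Rat.cast_commute a' (b' : D)).eq]
  have c4 : a * b' = b * a' := by exact_mod_cast c3
  have hn1 : (1 + (n : ℚ) * n) ≠ 0 := by positivity
  have hm1 : (1 + (m : ℚ) * m) ≠ 0 := by positivity
  rw [ha, ha', hb, hb'] at c4
  have c5 : ((n : ℚ) - m) * (1 + n * m) = 0 := by
    field_simp at c4
    nlinarith [c4]
  rcases mul_eq_zero.mp c5 with h0 | h0
  · exact_mod_cast sub_eq_zero.mp h0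
  · exfalso
    have : (0 : ℚ) < 1 + n * m := by positivity
    exact this.ne' h0

end AForm

end Vale.Agent.P011S
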